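import Vale.Agent.N250.Schwarz
import Vale.Agent.P250I46.Lin

/-!
The Ahlfors–Schwarz lemma for affine discs in a Kaehler manifold of negative holomorphic sectional
curvature.
-/

set_option maxSynthPendingDepth 3
set_option linter.unusedSectionVars false

namespace Vale.Agent.N250X

open Set Filter Topology Metric Complex Vale.Agent.P250 Vale.Agent.P250I Vale.Agent.N250

variable {E : Type} [NormedAddCommGroup E] [NormedSpace ℂ E] [FiniteDimensional ℝ E]
  [CompleteSpace E] {U : Set E} {G : E → E →L[ℝ] E →L[ℝ] ℝ} {C : E → E →L[ℝ] E →L[ℝ] E}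

lemma II (v : E) : I • I • v = -v := by rw [smul_smul, I_mul_I, neg_one_smul]

lemma d2_ev {p : E} (hG : ContDiffAt ℝ (⊤ : ℕ∞) G p) (X Y A B : E) :
    fderiv ℝ (fderiv ℝ fun q => G q A B) p X Y = fderiv ℝ (fderiv ℝ G) p X Y A B := by
  have h1 : ContDiffAt ℝ (⊤ : ℕ∞) (fun q => G q A B) p :=
    (hG.clm_apply contDiffAt_const).clm_apply contDiffAt_const
  rw [← fderiv_c1 ((contDiffAt_fderiv h1).differentiableAt (by simp)),
    ← fderiv_c3 ((contDiffAt_fderiv hG).differentiableAt (by simp))]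
  congr 1
  refine EventuallyEq.fderiv_eq ?_
  filter_upwards [eventually_contDiffAt hG] with q hq
  exact fderiv_c2 (hq.differentiableAt (by norm_num)) A B Y

/-- the logarithm of the length of a constant vector field is strictly subharmonic -/
lemma log_sub (hU : IsOpen U) (D : Data U G C)
    (herm : ∀ p ∈ U, ∀ X Y, G p (I • X) (I • Y) = G p X Y)
    (closed : ∀ p ∈ U, ∀ X Y Z, fderiv ℝ G p X (I • Y) Z + fderiv ℝ G p Y (I • Z) X
      + fderiv ℝ G p Z (I • X) Y = 0) {a : ℝ} {q v : E} (hq : q ∈ U) (hv : v ≠ 0)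
    (hc : G q (riem C q v (I • v) (I • v)) v ≤ -a * G q v v ^ 2) :
    gP (fun x => -Real.log (G x v v)) q v v ≤ -(a / 2 * G q v v) := by
  have hn := hU.mem_nhds hq
  have hG := D.sG.contDiffAt hn
  have hGd := hG.differentiableAt (by simp)
  have hsy : ∀ᶠ x in 𝓝 q, ∀ X Y, G x X Y = G x Y X := by
    filter_upwards [hn] with x hx using D.symm x hx
  have hs' := fderiv_symm hGd hsy
  have skew : ∀ x ∈ U, ∀ X Y, G x (I • X) Y = -G x X (I • Y) := fun x hx X Y => by
    rw [← herm x hx X (I • Y), II, map_neg, neg_neg]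
  have fh : ∀ X Y Z, fderiv ℝ G q X (I • Y) (I • Z) = fderiv ℝ G q X Y Z := fun X Y Z => by
    rw [← fderiv_c2 hGd, ← fderiv_c2 hGd]
    congr 1
    refine EventuallyEq.fderiv_eq ?_
    filter_upwards [hn] with x hx using herm x hx Y Z
  have hK : KoszulAt G q fun X Y => C q X Y := D.koszul q hq
  have cs := koszul_symm hs' (D.pos q hq) hK
  have cj : ∀ u w, C q u (I • w) = I • C q u w := fun u w => by
    have key : ∀ z, G q (C q u (I • w) - I • C q u w) z = 0 := by
      intro z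
      have h1 := D.koszul q hq u (I • w) z
      have h2 := D.koszul q hq u w (I • z)
      have h3 := closed q hq u w z
      have h4 := closed q hq u (I • w) (I • z)
      have h5 := fh z u (I • w)
      rw [II, II, fh] at h4
      rw [II] at h5
      have h6 := hs' w (I • z) u
      have h7 := hs' (I • w) z u
      simp only [map_neg, neg_apply] at h4 h5
      rw [map_sub, sub_apply, skew q hq]
      linarith
    by_contra hne
    exact (D.pos q hq _ (sub_ne_zero.2 hne)).ne' (key _)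
  rw [riem_eq_num G C q hG (D.sC.contDiffAt hn) hsy (D.pos q hq)
    (by filter_upwards [hn] with x hx using D.koszul x hx), num] at hc
  have e1 : fderiv ℝ (fderiv ℝ G) q v (I • v) v (I • v) = 0 := by
    have h1 : (fun x => G x v (I • v)) =ᶠ[𝓝 q] fun _ => 0 := by
      filter_upwards [hn] with x hx
      linarith [skew x hx v v, D.symm x hx v (I • v)]
    rw [← d2_ev hG, h1.fderiv.fderiv_eq]
    simp
  have e2 : fderiv ℝ (fderiv ℝ G) q v v (I • v) (I • v) = fderiv ℝ (fderiv ℝ G) q v v v v := by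
    have h1 : (fun x => G x (I • v) (I • v)) =ᶠ[𝓝 q] fun x => G x v v := by
      filter_upwards [hn] with x hx using herm x hx v v
    rw [← d2_ev hG, ← d2_ev hG, h1.fderiv.fderiv_eq]
  have e3 : C q (I • v) v = I • C q v v := by rw [cs, cj]
  rw [e1, e2, cj, cj, e3, II, herm q hq, map_neg] at hc
  have hl : ContDiffAt ℝ 2 (fun x => G x v v) q :=
    ((hG.clm_apply contDiffAt_const).clm_apply contDiffAt_const).of_le two_le_smooth
  have hpos := D.pos q hq v hv
  have cc := koszul_compat (D.symm q hq) hs' hK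
  rw [Jet2.gP_comp_real (u := fun t => -Real.log t) hl (Real.contDiffAt_log.2 hpos.ne').neg,
    MetricM.deriv2_neg_log, MetricM.deriv_neg_log, gP_apply, d2_ev hG, d2_ev hG, fderiv_c2 hGd,
    fderiv_c2 hGd, cc, cc, e3, D.symm q hq v (C q v v), D.symm q hq v (I • C q v v), skew q hq]
  set A := C q v v
  set l := G q v v with hl'
  have hb : G q A v ^ 2 + G q A (I • v) ^ 2 ≤ l * G q A A := by
    set w := l • A - G q A v • v - G q A (I • v) • I • v with hw
    have h1 : 0 ≤ G q w w := by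
      by_cases h0 : w = 0
      · simp [h0]
      · exact (D.pos q hq w h0).le
    have h2 : G q v (I • v) = 0 := by linarith [skew q hq v v, D.symm q hq v (I • v)]
    have h3 : G q w w = l * (l * G q A A - G q A v ^ 2 - G q A (I • v) ^ 2) := by
      simp only [hw, map_sub, map_smul, sub_apply, smul_apply, smul_eq_mul, herm q hq,
        D.symm q hq v A, D.symm q hq (I • v) A, D.symm q hq (I • v) v, h2, ← hl']
      ring
    rw [h3] at h1
    linarith [nonneg_of_mul_nonneg_right h1 hpos]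
  have h4 : -l⁻¹ * (1 / 4 * (fderiv ℝ (fderiv ℝ G) q v v v v
      + fderiv ℝ (fderiv ℝ G) q (I • v) (I • v) v v)) ≤ -l⁻¹ * (G q A A + a / 2 * l ^ 2) := by
    rw [neg_mul, neg_mul, neg_le_neg_iff]
    exact mul_le_mul_of_nonneg_left (by linarith) (inv_pos.2 hpos).le
  have h5 : (l ^ 2)⁻¹ / 4 * ((G q A v + G q A v) ^ 2 + (-G q A (I • v) + -G q A (I • v)) ^ 2)
      ≤ (l ^ 2)⁻¹ / 4 * (4 * (l * G q A A)) :=
    mul_le_mul_of_nonneg_left (by linarith) (by positivity)
  refine (add_le_add h4 h5).trans_eq ?_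
  field_simp
  ring

/-- **Ahlfors–Schwarz lemma**, up to a universal constant. -/
theorem ahlfors (hU : IsOpen U) (D : Data U G C) {a : ℝ} (ha : 0 < a) {p v : E} {r : ℝ}
    (hr : 0 < r) (hp : ∀ t : ℂ, ‖t‖ < r → p + t • v ∈ U) (hv : v ≠ 0)
    (hc : ∀ q ∈ U, gP (fun x => -Real.log (G x v v)) q v v ≤ -(a / 2 * G q v v)) :
    G p v v ≤ 16 / (a * r ^ 2) := by
  set R : ℝ := (r / 2) ^ 2 with hR
  have hR0 : 0 < R := by positivity
  let φ : ℂ → E := fun t => p + t • v
  have hφ : ∀ t, ContDiffAt ℂ (⊤ : ℕ∞) φ t := fun t => by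
    simp only [φ]
    fun_prop
  have hm : ∀ t ∈ closedBall (0 : ℂ) (r / 2), φ t ∈ U := fun t ht =>
    hp t ((mem_closedBall_zero_iff.1 ht).trans_lt (half_lt_self hr))
  have hl : ∀ q ∈ U, ContDiffAt ℝ (⊤ : ℕ∞) (fun x => G x v v) q := fun q hq =>
    ((D.sG.contDiffAt (hU.mem_nhds hq)).clm_apply contDiffAt_const).clm_apply contDiffAt_const
  obtain ⟨t0, ht0, hmax⟩ := (isCompact_closedBall (0 : ℂ) (r / 2)).exists_isMaxOn
    (f := fun t => G (φ t) v v * (R - ‖t‖ ^ 2) ^ 2) ⟨0, mem_closedBall_self (half_pos hr).le⟩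
    (ContinuousOn.mul (fun t ht => (ContinuousAt.comp (g := fun x => G x v v)
      (hl _ (hm t ht)).continuousAt (hφ t).continuousAt).continuousWithinAt) (by fun_prop))
  have h0 : G (φ 0) v v * (R - ‖(0 : ℂ)‖ ^ 2) ^ 2 ≤ G (φ t0) v v * (R - ‖t0‖ ^ 2) ^ 2 :=
    hmax (mem_closedBall_self (half_pos hr).le)
  have hp0 : φ 0 = p := by simp [φ]
  have hpU : p ∈ U := hp0 ▸ hm 0 (mem_closedBall_self (half_pos hr).le)
  rw [hp0, norm_zero, zero_pow two_ne_zero, sub_zero] at h0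
  have hlt : ‖t0‖ < r / 2 := by
    refine (mem_closedBall_zero_iff.1 ht0).lt_of_ne fun h => ?_
    rw [h, ← hR, sub_self, zero_pow two_ne_zero, mul_zero] at h0
    exact h0.not_gt (mul_pos (D.pos p hpU v hv) (by positivity))
  have hf : ∀ t : ℂ, ‖t‖ < r / 2 → 0 < R - ‖t‖ ^ 2 := fun t ht =>
    sub_pos.2 (pow_lt_pow_left₀ ht (norm_nonneg _) two_ne_zero)
  have hf0 := hf t0 hlt
  have hq := hm t0 ht0
  have hpos := D.pos _ hq v hv
  have c0 : ContDiffAt ℝ (⊤ : ℕ∞) (fun x => -Real.log (G x v v)) (φ t0) :=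
    ((hl _ hq).log hpos.ne').neg
  have c1 : ContDiffAt ℝ (⊤ : ℕ∞) (fun t => -Real.log (G (φ t) v v)) t0 :=
    c0.comp t0 ((hφ t0).restrict_scalars ℝ)
  have c3 : ContDiffAt ℝ (⊤ : ℕ∞) (fun t : ℂ => ‖t‖ ^ 2) t0 := (contDiff_norm_sq ℝ).contDiffAt
  have cu : ContDiffAt ℝ (⊤ : ℕ∞) (fun s : ℝ => Real.log (R - s)) (‖t0‖ ^ 2) :=
    (contDiffAt_const.sub contDiffAt_id).log hf0.ne'
  have c2 : ContDiffAt ℝ (⊤ : ℕ∞) (fun t : ℂ => Real.log (R - ‖t‖ ^ 2)) t0 :=
    ContDiffAt.comp (g := fun s : ℝ => Real.log (R - s)) t0 cu c3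
  let V : ℂ → ℝ := fun t => (-1) * -Real.log (G (φ t) v v) + 2 * Real.log (R - ‖t‖ ^ 2)
  have hV : ContDiffAt ℝ (⊤ : ℕ∞) V t0 := (contDiffAt_const.mul c1).add (contDiffAt_const.mul c2)
  have hVe : ∀ t : ℂ, ‖t‖ < r / 2 → V t = Real.log (G (φ t) v v * (R - ‖t‖ ^ 2) ^ 2) :=
    fun t ht => by
      rw [Real.log_mul (D.pos _ (hm t (mem_closedBall_zero_iff.2 ht.le)) v hv).ne'
        (pow_pos (hf t ht) 2).ne', Real.log_pow]
      simp only [V]
      push_cast
      ring
  have hloc : IsLocalMax V t0 := by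
    filter_upwards [isOpen_ball.mem_nhds (mem_ball_zero_iff.2 hlt)] with t ht
    have ht' := mem_ball_zero_iff.1 ht
    rw [hVe t ht', hVe t0 hlt]
    exact Real.log_le_log (mul_pos (D.pos _ (hm t (ball_subset_closedBall ht)) v hv)
      (pow_pos (hf t ht') 2)) (hmax (ball_subset_closedBall ht))
  have h1 : gP V t0 1 1 ≤ 0 := by
    rw [gP_apply]
    linarith [snd_nonpos hV hloc 1, snd_nonpos hV hloc (Complex.I • 1)]
  have hd : fderiv ℝ φ t0 1 = v := by
    have h2 : HasFDerivAt φ ((ContinuousLinearMap.id ℝ ℂ).smulRight v) t0 := by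
      simpa [φ] using ((hasFDerivAt_id (𝕜 := ℝ) t0).smul_const v).const_add p
    rw [h2.fderiv]
    simp
  have du : ∀ s, 0 < R - s → HasDerivAt (fun s : ℝ => Real.log (R - s)) (-(R - s)⁻¹) s :=
    fun s hs => by
      simpa [div_eq_mul_inv] using ((hasDerivAt_id s).const_sub R).log hs.ne'
  have du2 : deriv (deriv fun s : ℝ => Real.log (R - s)) (‖t0‖ ^ 2) = -((R - ‖t0‖ ^ 2) ^ 2)⁻¹ := by
    have h2 : (deriv fun s : ℝ => Real.log (R - s)) =ᶠ[𝓝 (‖t0‖ ^ 2)] fun s => -(R - s)⁻¹ := by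
      filter_upwards [Iio_mem_nhds (sub_pos.1 hf0)] with s hs using (du s (sub_pos.2 hs)).deriv
    rw [h2.deriv_eq]
    simpa [div_eq_mul_inv] using
      (((hasDerivAt_id (‖t0‖ ^ 2)).const_sub R).fun_inv hf0.ne').fun_neg.deriv
  have h2 : gP V t0 1 1 = -gP (fun x => -Real.log (G x v v)) (φ t0) v v
      - 2 * R / (R - ‖t0‖ ^ 2) ^ 2 := by
    simp only [V]
    rw [Jet2.gP_add ((contDiffAt_const.mul c1).of_le two_le_smooth)
      ((contDiffAt_const.mul c2).of_le two_le_smooth), Jet2.gP_const_mul (c1.of_le two_le_smooth),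
      Jet2.gP_const_mul (c2.of_le two_le_smooth), gP_comp _ φ t0 (hφ t0) c0, hd,
      Jet2.gP_comp_real (u := fun s : ℝ => Real.log (R - s)) (c3.of_le two_le_smooth)
        (cu.of_le two_le_smooth), du2, (du _ hf0).deriv, P250.G.GBase.gP_N,
      P250.G.GBase.fderiv_N, P250.G.GBase.fderiv_N]
    have h3 : (2 * (inner ℂ t0 (1 : ℂ)).re) ^ 2 + (2 * (inner ℂ t0 (I • (1 : ℂ))).re) ^ 2
        = 4 * ‖t0‖ ^ 2 := by
      rw [Complex.sq_norm, Complex.normSq_apply]
      simp
      ring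
    rw [h3, norm_one]
    field_simp
    ring
  have h3 := hc _ hq
  have h4 : a / 2 * G (φ t0) v v ≤ 2 * R / (R - ‖t0‖ ^ 2) ^ 2 := by linarith
  rw [le_div_iff₀ (pow_pos hf0 2)] at h4
  rw [le_div_iff₀ (by positivity)]
  have h5 : r ^ 2 = 4 * R := by rw [hR]; ring
  have h6 : R * (G p v v * (a * r ^ 2)) ≤ R * 16 := by
    rw [h5]
    nlinarith
  exact le_of_mul_le_mul_left h6 hR0

end Vale.Agent.N250X
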