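import Mathlib.Analysis.Complex.BranchLogRoot
import Mathlib.Analysis.Complex.OpenMapping
import Mathlib.Analysis.Complex.Schwarz
import Mathlib.Analysis.Calculus.FDeriv.OfCompLeft
import Mathlib.Analysis.Real.Pi.Bounds
import Mathlib.Analysis.SpecialFunctions.Trigonometric.DerivHyp

/-!
Bloch's theorem in Landau's form, and functions omitting two values.
-/

namespace Vale.Agent.N250X

open Set Filter Topology Metric

/-- **Bloch–Landau**: if the image of a disc of radius `r` contains no disc of radius `ρ`, the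
derivative at the centre is at most `96 ρ / r`. -/
theorem bloch {f : ℂ → ℂ} {r ρ : ℝ} (hr : 0 < r) (hf : DifferentiableOn ℂ f (ball 0 r))
    (h : ∀ c, ∃ z ∈ ball c ρ, z ∉ f '' ball 0 r) : ‖deriv f 0‖ ≤ 96 * ρ / r := by
  have hρ : 0 < ρ := by
    obtain ⟨z, hz, -⟩ := h 0
    exact pos_of_mem_ball hz
  have hf' : DifferentiableOn ℂ (deriv f) (ball 0 r) := hf.deriv isOpen_ball
  have hsub : closedBall (0 : ℂ) (r / 2) ⊆ ball 0 r := closedBall_subset_ball (half_lt_self hr)
  obtain ⟨a, ha, hmax⟩ := (isCompact_closedBall (0 : ℂ) (r / 2)).exists_isMaxOn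
    (f := fun z => (r / 2 - ‖z‖) * ‖deriv f z‖) ⟨0, mem_closedBall_self (half_pos hr).le⟩
    ((continuousOn_const.sub continuous_norm.continuousOn).mul (hf'.continuousOn.mono hsub).norm)
  by_contra hcon
  rw [not_le, div_lt_iff₀ hr] at hcon
  have h0 : (r / 2 - ‖(0 : ℂ)‖) * ‖deriv f 0‖ ≤ (r / 2 - ‖a‖) * ‖deriv f a‖ :=
    hmax (mem_closedBall_self (half_pos hr).le)
  rw [norm_zero, sub_zero] at h0
  set t := (r / 2 - ‖a‖) / 2 with ht
  set d := ‖deriv f a‖ with hd
  have h1 : 24 * ρ < t * d := by rw [ht]; linarith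
  have hd0 : 0 ≤ d := norm_nonneg _
  have ht0 : 0 < t := by
    by_contra h2
    nlinarith
  have hd1 : 0 < d := by
    by_contra h2
    nlinarith
  have h2 : ∀ z ∈ ball a t, ‖z‖ ≤ r / 2 - t := fun z hz => by
    have := norm_le_norm_add_norm_sub' z a
    rw [mem_ball, dist_eq_norm] at hz
    linarith
  have h3 : ball a t ⊆ ball 0 r := fun z hz => hsub (mem_closedBall_zero_iff.2 (by linarith [h2 z hz]))
  have h4 : MapsTo (deriv f) (ball a t) (closedBall (deriv f a) (3 * d)) := fun z hz => by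
    have h5 : (r / 2 - ‖z‖) * ‖deriv f z‖ ≤ (r / 2 - ‖a‖) * d :=
      hmax (mem_closedBall_zero_iff.2 (by linarith [h2 z hz]))
    have h6 : t * ‖deriv f z‖ ≤ t * (2 * d) := by
      nlinarith [h2 z hz, norm_nonneg (deriv f z)]
    have h7 := le_of_mul_le_mul_left h6 ht0
    rw [mem_closedBall, dist_eq_norm]
    linarith [norm_sub_le (deriv f z) (deriv f a)]
  have h5 : closedBall a (t / 6) ⊆ ball a t := closedBall_subset_ball (by linarith)
  have hda : ∀ z ∈ ball a t, HasDerivAt f (deriv f z) z := fun z hz =>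
    (hf.differentiableAt (isOpen_ball.mem_nhds (h3 hz))).hasDerivAt
  have h6 : ∀ z ∈ sphere a (t / 6), t * d / 12 ≤ ‖f z - f a‖ := fun z hz => by
    have h7 := (convex_closedBall a (t / 6)).norm_image_sub_le_of_norm_hasDerivWithin_le
      (f := fun z => f z - deriv f a * z) (f' := fun z => deriv f z - deriv f a) (C := d / 2)
      (fun x hx => ((hda x (h5 hx)).sub (by
        simpa using (hasDerivAt_id x).const_mul (deriv f a))).hasDerivWithinAt)
      (fun x hx => by
        have h8 := Complex.dist_le_div_mul_dist_of_mapsTo_ball (hf'.mono h3) h4 (h5 hx)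
        rw [dist_eq_norm] at h8
        refine h8.trans ((mul_le_mul_of_nonneg_left (mem_closedBall.1 hx) (by positivity)).trans_eq ?_)
        field_simp
        norm_num)
      (mem_closedBall_self (by positivity)) (sphere_subset_closedBall hz)
    have h8 : ‖z - a‖ = t / 6 := by rw [← dist_eq_norm]; exact hz
    have h9 := norm_sub_le (f z - f a) (f z - deriv f a * z - (f a - deriv f a * a))
    rw [show f z - f a - (f z - deriv f a * z - (f a - deriv f a * a)) = deriv f a * (z - a) by ring,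
      norm_mul, ← hd] at h9
    rw [h8] at h7 h9
    linarith
  have h7 := DiffContOnCl.ball_subset_image_closedBall
    ((hf.mono (h5.trans h3)).diffContOnCl_ball le_rfl) (by positivity) h6
    (((hda a (mem_ball_self ht0)).eventually_ne (norm_pos_iff.1 hd1)).frequently.filter_mono
      nhdsWithin_le_nhds)
  obtain ⟨z, hz, hz'⟩ := h (f a)
  exact hz' (image_mono (h5.trans h3) (h7 (ball_subset_ball (by linarith) hz)))

/-- the points where `cosh` is an integer form a net -/
lemma net (c : ℂ) : ∃ z ∈ ball c 6, ∃ n : ℤ, Complex.cosh z = n := by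
  obtain ⟨x, hx, n, hn⟩ : ∃ x : ℝ, |x - c.re| ≤ 2 ∧ ∃ n : ℤ, Real.cosh x = n := by
    have h1 : 2 ≤ Real.cosh 2 := by
      have h2 := Real.add_one_le_exp 1
      have h3 : Real.exp 2 = Real.exp 1 * Real.exp 1 := by rw [← Real.exp_add]; norm_num
      rw [Real.cosh_eq]
      nlinarith [Real.exp_pos (-2)]
    have h2 : Real.cosh |c.re| + 1 ≤ Real.cosh (|c.re| + 2) := by
      rw [Real.cosh_add]
      have h3 := Real.sinh_nonneg_iff.2 (abs_nonneg c.re)
      have h4 := Real.sinh_nonneg_iff.2 (zero_le_two (α := ℝ))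
      nlinarith [Real.one_le_cosh |c.re|, mul_nonneg h3 h4]
    obtain ⟨x, hx, hx'⟩ := intermediate_value_Icc (a := |c.re|) (b := |c.re| + 2) (by linarith)
      Real.continuous_cosh.continuousOn
      ⟨Int.le_ceil _, (Int.ceil_lt_add_one (Real.cosh |c.re|)).le.trans h2⟩
    rcases abs_cases c.re with h3 | h3
    · exact ⟨x, abs_le.2 ⟨by linarith [hx.1], by linarith [hx.2]⟩, _, hx'⟩
    · exact ⟨-x, abs_le.2 ⟨by linarith [hx.2], by linarith [hx.1]⟩, _, by rwa [Real.cosh_neg]⟩
  set k : ℤ := round (c.im / (2 * Real.pi)) with hk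
  have hpi := Real.pi_pos
  have h1 : |k * (2 * Real.pi) - c.im| ≤ Real.pi := by
    have h2 := abs_sub_round (c.im / (2 * Real.pi))
    have e : k * (2 * Real.pi) - c.im = -(2 * Real.pi) * (c.im / (2 * Real.pi) - k) := by
      field_simp
      ring
    rw [e, abs_mul, abs_neg, abs_of_pos (by positivity : 0 < 2 * Real.pi)]
    nlinarith
  refine ⟨x + k * (2 * Real.pi * Complex.I), ?_, n, ?_⟩
  · rw [mem_ball, dist_eq_norm]
    refine (Complex.norm_le_abs_re_add_abs_im _).trans_lt ?_
    have e1 : ((x : ℂ) + k * (2 * Real.pi * Complex.I) - c).re = x - c.re := by simp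
    have e2 : ((x : ℂ) + k * (2 * Real.pi * Complex.I) - c).im = k * (2 * Real.pi) - c.im := by simp
    rw [e1, e2]
    linarith [Real.pi_lt_four]
  · rw [Complex.cosh_periodic.int_mul k, ← Complex.ofReal_cosh, hn, Complex.ofReal_intCast]

variable {E : Type*} [NormedAddCommGroup E] [NormedSpace ℂ E]

/-- A holomorphic logarithm on a simply connected open set. -/
lemma exists_log' {U : Set E} (hU : IsOpen U) (hs : SimplyConnectedSpace U) {b : E → ℂ}
    (hb : DifferentiableOn ℂ b U) (h0 : ∀ q ∈ U, b q ≠ 0) :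
    ∃ L : E → ℂ, DifferentiableOn ℂ L U ∧ ∀ q ∈ U, Complex.exp (L q) = b q := by
  obtain ⟨L, hL, hLb⟩ := Complex.exists_continuousOn_eqOn_exp_comp hs hU hb.continuousOn
    (by rintro ⟨q, hq, h⟩; exact h0 q hq h)
  refine ⟨L, fun q hq => ?_, fun q hq => hLb hq⟩
  have h1 := (Complex.hasDerivAt_exp (L q)).hasFDerivAt
  have h2 := (hb.differentiableAt (hU.mem_nhds hq)).hasFDerivAt
  have h3 := h1.of_comp_of_leftInverse
    (f'symm := (Complex.exp (L q))⁻¹ • ContinuousLinearMap.id ℂ ℂ)
    (hL.continuousAt (hU.mem_nhds hq)) h2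
    (by filter_upwards [hU.mem_nhds hq] with x hx using hLb hx) (fun x => by
      have := Complex.exp_ne_zero (L q)
      simp
      field_simp)
  exact h3.differentiableAt.differentiableWithinAt

/-- first derivatives are bounded as for a bounded map -/
def LB {Y : Type*} [NormedAddCommGroup Y] [NormedSpace ℂ Y] (M : Set E) (F : E → Y) (C : ℝ) :
    Prop :=
  ∀ (p v : E) (r : ℝ), 0 < r → (∀ t : ℂ, ‖t‖ < r → p + t • v ∈ M) → ‖fderiv ℂ F p v‖ ≤ 2 * C / r

/-- A function omitting two values is an entire function of a Bloch function. -/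
theorem exists_lift {M : Set E} (hM : IsOpen M) (hs : SimplyConnectedSpace M) {f : E → ℂ}
    (hf : DifferentiableOn ℂ f M) {a b : ℂ} (hab : a ≠ b) (h : ∀ x ∈ M, f x ≠ a ∧ f x ≠ b) :
    ∃ G : E → ℂ, DifferentiableOn ℂ G M ∧ LB M G 288 ∧
      ∀ p ∈ M, ∀ v, fderiv ℂ G p v = 0 → fderiv ℂ f p v = 0 := by
  have hba : b - a ≠ 0 := sub_ne_zero.2 hab.symm
  have hpi : (2 * Real.pi * Complex.I : ℂ) ≠ 0 := Complex.two_pi_I_ne_zero
  have dv : ∀ {g : E → ℂ}, DifferentiableOn ℂ g M → ∀ c : ℂ,
      DifferentiableOn ℂ (fun x => g x / c) M := fun hg c => by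
    simpa only [div_eq_mul_inv] using hg.mul_const c⁻¹
  obtain ⟨L, hL, hLf⟩ := exists_log' hM hs (dv (hf.sub_const a) (b - a))
    fun x hx => div_ne_zero (sub_ne_zero.2 (h x hx).1) hba
  set u : E → ℂ := fun x => L x / (2 * Real.pi * Complex.I) with hu
  have hud : DifferentiableOn ℂ u M := dv hL _
  have huL : ∀ x, L x = u x * (2 * Real.pi * Complex.I) := fun x => (div_mul_cancel₀ _ hpi).symm
  have hun : ∀ x ∈ M, ∀ n : ℤ, u x ≠ n := fun x hx n hn => by
    have h1 := hLf x hx
    rw [huL, hn, Complex.exp_int_mul_two_pi_mul_I, eq_div_iff hba, one_mul] at h1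
    exact (h x hx).2 (by linear_combination -h1)
  obtain ⟨S, hS, hSu⟩ := exists_log' hM hs ((hud.pow 2).sub_const 1) fun x hx h0 => by
    have h1 : (u x - 1) * (u x + 1) = 0 := by
      simp only [Pi.pow_apply] at h0
      linear_combination h0
    rcases mul_eq_zero.1 h1 with h2 | h2
    · exact hun x hx 1 (by push_cast; linear_combination h2)
    · exact hun x hx (-1) (by push_cast; linear_combination h2)
  have h1 : ∀ x ∈ M, (u x + Complex.exp (S x / 2)) * (u x - Complex.exp (S x / 2)) = 1 :=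
    fun x hx => by
      have h2 : Complex.exp (S x / 2) * Complex.exp (S x / 2) = u x ^ 2 - 1 := by
        rw [← Complex.exp_add, add_halves]
        exact hSu x hx
      linear_combination -h2
  obtain ⟨G, hG, hGu⟩ := exists_log' hM hs (hud.add (dv hS 2).cexp)
    fun x hx => left_ne_zero_of_mul_eq_one (h1 x hx)
  have h2 : ∀ x ∈ M, Complex.cosh (G x) = u x := fun x hx => by
    have h3 : Complex.exp (G x) = u x + Complex.exp (S x / 2) := hGu x hx
    have h4 : Complex.exp (-G x) = u x - Complex.exp (S x / 2) := by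
      rw [Complex.exp_neg, h3]
      exact inv_eq_of_mul_eq_one_right (h1 x hx)
    rw [Complex.cosh, h3, h4]
    ring
  refine ⟨G, hG, fun p v r hr hp => ?_, fun p hp v hv => ?_⟩
  · have hp0 : p ∈ M := by simpa using hp 0 (by simpa using hr)
    have h3 : HasDerivAt (fun t : ℂ => p + t • v) v 0 := by
      simpa using ((hasDerivAt_id (0 : ℂ)).smul_const v).const_add p
    have h4 : HasFDerivAt G (fderiv ℂ G p) (p + (0 : ℂ) • v) := by
      simpa using (hG.differentiableAt (hM.mem_nhds hp0)).hasFDerivAt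
    have h5 : deriv (fun t : ℂ => G (p + t • v)) 0 = fderiv ℂ G p v :=
      (h4.comp_hasDerivAt (0 : ℂ) h3).deriv
    have h6 := bloch (f := fun t : ℂ => G (p + t • v)) (ρ := 6) hr
      (hG.comp (by fun_prop) fun t ht => hp t (mem_ball_zero_iff.1 ht)) fun c => by
        obtain ⟨z, hz, n, hn⟩ := net c
        refine ⟨z, hz, ?_⟩
        rintro ⟨t, ht, rfl⟩
        have h7 := hp t (mem_ball_zero_iff.1 ht)
        exact hun _ h7 n ((h2 _ h7).symm.trans hn)
    rw [h5] at h6
    exact h6.trans_eq (by norm_num)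
  · let φ : ℂ → ℂ := fun z => a + (b - a) * Complex.exp (Complex.cosh z * (2 * Real.pi * Complex.I))
    have h3 : f =ᶠ[𝓝 p] φ ∘ G := by
      filter_upwards [hM.mem_nhds hp] with x hx
      simp only [φ, Function.comp_apply]
      rw [h2 x hx, ← huL, hLf x hx]
      field_simp
      ring
    have h4 : Differentiable ℂ φ := by fun_prop
    rw [h3.fderiv_eq, fderiv_comp p (h4 _) (hG.differentiableAt (hM.mem_nhds hp)),
      ContinuousLinearMap.comp_apply, hv, map_zero]

end Vale.Agent.N250X
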