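import Mathlib.AlgebraicTopology.FundamentalGroupoid.SimplyConnected
import Mathlib.Analysis.Calculus.ContDiff.Defs
import Mathlib.Analysis.Calculus.Deriv.Basic
import Mathlib.Analysis.Complex.Basic
import Mathlib.Analysis.Normed.Lp.MeasurableSpace
import Mathlib.Analysis.SpecialFunctions.Pow.NNReal
import Mathlib.LinearAlgebra.Complex.FiniteDimensional
import Mathlib.MeasureTheory.Constructions.BorelSpace.Complex
import Mathlib.MeasureTheory.Measure.Haar.InnerProductSpace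

/-!
Complete negatively pinched Kaehler metrics on open subsets of a complex vector space.
-/

namespace Vale.Agent.N250X

open Set Complex MeasureTheory
open scoped ContDiff

variable {E : Type} [NormedAddCommGroup E] [NormedSpace ℂ E]

/-- Fields of real bilinear maps `E × E → F` on `E`. -/
abbrev Field2 (E F : Type) [NormedAddCommGroup E] [NormedSpace ℂ E] [NormedAddCommGroup F]
    [NormedSpace ℝ F] : Type := E → E →ₗ[ℝ] E →ₗ[ℝ] F

section

variable {F : Type} [NormedAddCommGroup F] [NormedSpace ℝ F]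

/-- The value of the field `b` at `p` on `X`, `Y`. -/
noncomputable def ev (b : Field2 E F) (p X Y : E) : F := b p X Y

/-- The derivative at `p` in the direction `X` of the function `q ↦ b_q(Y, Z)`. -/
noncomputable def dd (b : Field2 E F) (p X Y Z : E) : F := fderiv ℝ (fun q => ev b q Y Z) p X

/-- The field `b` is smooth on `M`. -/
def Smooth (M : Set E) (b : Field2 E F) : Prop := ∀ X Y, ContDiffOn ℝ ∞ (fun p => ev b p X Y) M

end

/-- `g` is a Kaehler metric on `M`: smooth, symmetric, positive definite, invariant under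
multiplication by `i`, and the form `ω(X, Y) = g(iX, Y)` is closed. -/
def Kaehler (M : Set E) (g : Field2 E ℝ) : Prop :=
  Smooth M g ∧ ∀ p ∈ M, ∀ X Y, ev g p X Y = ev g p Y X ∧ (X ≠ 0 → 0 < ev g p X X) ∧
    ev g p (I • X) (I • Y) = ev g p X Y ∧
    ∀ Z, dd g p X (I • Y) Z + dd g p Y (I • Z) X + dd g p Z (I • X) Y = 0

/-- `∇_X Y = dY(X) + Γ(X, Y)` is the Levi-Civita connection of `g` on `M`: it is smooth, torsion
free and metric. -/
def LeviCivita (M : Set E) (g : Field2 E ℝ) (Γ : Field2 E E) : Prop :=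
  Smooth M Γ ∧ ∀ p ∈ M, ∀ X Y, ev Γ p X Y = ev Γ p Y X ∧
    ∀ Z, dd g p X Y Z = ev g p (ev Γ p X Y) Z + ev g p Y (ev Γ p X Z)

/-- The curvature tensor `R(X, Y) Z = ∇_X ∇_Y Z - ∇_Y ∇_X Z - ∇_[X,Y] Z` at `p`. -/
noncomputable def curv (Γ : Field2 E E) (p X Y Z : E) : E :=
  dd Γ p X Y Z - dd Γ p Y X Z + ev Γ p X (ev Γ p Y Z) - ev Γ p Y (ev Γ p X Z)

/-- Every tangent vector is the initial velocity of a geodesic in `M` defined for all times. -/
def Complete (M : Set E) (Γ : Field2 E E) : Prop :=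
  ∀ p ∈ M, ∀ X, ∃ γ : ℝ → E, ContDiff ℝ ∞ γ ∧ γ 0 = p ∧ deriv γ 0 = X ∧
    ∀ t, γ t ∈ M ∧ deriv (deriv γ) t + ev Γ (γ t) (deriv γ t) (deriv γ t) = 0

/-- `M` is open and simply connected and `g` is a complete Kaehler metric on `M` whose sectional
curvatures `g(R(X,Y)Y, X)`, `X`, `Y` orthonormal, lie in `[-b, -a]`, `0 < a ≤ b`. -/
def Pinched (M : Set E) (g : Field2 E ℝ) : Prop :=
  IsOpen M ∧ SimplyConnectedSpace M ∧ Kaehler M g ∧ ∃ Γ, LeviCivita M g Γ ∧ Complete M Γ ∧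
    ∃ a b : ℝ, 0 < a ∧ a ≤ b ∧ ∀ p ∈ M, ∀ X Y, ev g p X X = 1 → ev g p Y Y = 1 →
      ev g p X Y = 0 → ev g p (curv Γ p X Y Y) X ∈ Icc (-b) (-a)

/-- There are mutually inverse holomorphic maps between `M` and `U`. -/
def Biholo (M U : Set E) : Prop :=
  ∃ F G : E → E, DifferentiableOn ℂ F M ∧ DifferentiableOn ℂ G U ∧ MapsTo F M U ∧ MapsTo G U M ∧
    InvOn G F M U

/-- In some linear coordinates, every coordinate of `F` misses two values on `M`. -/
def MissesTwo (M : Set E) (F : E → E) : Prop :=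
  ∃ (n : ℕ) (e : Module.Basis (Fin n) ℂ E), ∀ j, ∃ a b : ℂ, a ≠ b ∧
    ∀ x ∈ M, e.repr (F x) j ≠ a ∧ e.repr (F x) j ≠ b

/-- `F` has bounded differential for the metric `g`. -/
def Lip (M : Set E) (g : Field2 E ℝ) (F : E → E) : Prop :=
  ∃ C : ℝ, ∀ x ∈ M, ∀ X, ‖fderiv ℂ F x X‖ ^ 2 ≤ C * ev g x X X

/-- `f` is holomorphic on `M` and `∫_M |f|^p < ∞`. -/
def HolLp [MeasureSpace E] (M : Set E) (p : ℝ) (f : E → ℂ) : Prop :=
  DifferentiableOn ℂ f M ∧ ∫⁻ x in M, ‖f x‖ₑ ^ p < ⊤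

variable (E) in
/-- The question, for open subsets of `E`. -/
def Q : Prop := ∀ (M : Set E) (g : Field2 E ℝ), Pinched M g →
  ∃ U, IsOpen U ∧ IsConnected U ∧ Bornology.IsBounded U ∧ Biholo M U

variable (E) in
/-- A counterexample with stronger properties. -/
def Strong [MeasureSpace E] : Prop := ∃ (M : Set E) (g : Field2 E ℝ), Pinched M g ∧
  (∀ U, IsOpen U → volume U < ⊤ ∨ MissesTwo U id → ¬ Biholo M U) ∧
  (∀ p > 0, ∀ f, HolLp M p f → ∃ x ∈ M, f x = 0) ∧ (∀ x ∈ M, ∃ f, HolLp M 2 f ∧ f x ≠ 0) ∧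
  ∀ F, DifferentiableOn ℂ F M → MissesTwo M F ∨ Lip M g F →
    ∃ x ∈ M, ¬ Function.Injective (fderiv ℂ F x)

/-- `ℂⁿ`. -/
abbrev Cn (n : ℕ) : Type := EuclideanSpace ℂ (Fin n)

end Vale.Agent.N250X
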