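import Vale.Agent.N250X.Osc

/-!
The Jacobian determinant of a holomorphic map and the volume of its image.
-/

set_option maxSynthPendingDepth 3
set_option linter.unusedSectionVars false

namespace Vale.Agent.N250X

open Set Filter Topology Metric MeasureTheory Vale.Agent.P250 Vale.Agent.P250.G Vale.Agent.N250
  Vale.Agent.P250.H3 Vale.Agent.P250.H286

section Gen

variable {E : Type*} [NormedAddCommGroup E] [NormedSpace ℂ E] [FiniteDimensional ℂ E]

/-- the complex Jacobian determinant -/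
noncomputable def jac (F : E → E) (x : E) : ℂ := LinearMap.det (fderiv ℂ F x).toLinearMap

lemma jac_eq_zero {F : E → E} {x : E} : jac F x = 0 ↔ ∃ v, v ≠ 0 ∧ fderiv ℂ F x v = 0 := by
  rw [jac, LinearMap.det_eq_zero_iff_ker_ne_bot, Submodule.ne_bot_iff]
  exact ⟨fun ⟨v, h1, h2⟩ => ⟨v, h2, h1⟩, fun ⟨v, h1, h2⟩ => ⟨v, h2, h1⟩⟩

lemma jac_diff {M : Set E} (hM : IsOpen M) {F : E → E} (hF : DifferentiableOn ℂ F M) :
    DifferentiableOn ℂ (jac F) M := by
  classical
  have := FiniteDimensional.complete ℂ E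
  let b := Module.finBasis ℂ E
  have hdet : Continuous b.det.toMultilinearMap := by
    have h1 : ⇑b.det.toMultilinearMap = fun v => (b.toMatrix v).det :=
      funext fun v => b.det_apply v
    rw [h1]
    refine Continuous.matrix_det (continuous_pi fun i => continuous_pi fun j => ?_)
    exact (b.coord i).continuous_of_finiteDimensional.comp (continuous_apply j)
  obtain ⟨K, -, hK⟩ := b.det.toMultilinearMap.exists_bound_of_continuous hdet
  let D := b.det.toMultilinearMap.mkContinuous K hK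
  have h1 : DifferentiableOn ℂ (fun q => fun i => fderiv ℂ F q (b i)) M :=
    differentiableOn_pi.2 fun i => differentiableOn_fderiv_apply hM hF (b i)
  refine ((D.contDiff (n := 1)).differentiable one_ne_zero |>.comp_differentiableOn h1).congr
    fun x _ => ?_
  have h2 := b.det_comp (fderiv ℂ F x).toLinearMap b
  rw [b.det_self, mul_one] at h2
  exact h2.symm

variable [MeasurableSpace E] [BorelSpace E] (μ : Measure E) [μ.IsAddHaarMeasure]

lemma jac_int {S : Set E} (hS : IsOpen S) {F : E → E} (hF : DifferentiableOn ℂ F S)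
    (hi : InjOn F S) : ∫⁻ x in S, ‖jac F x‖ₑ ^ (2 : ℝ) ∂μ = μ (F '' S) := by
  have : FiniteDimensional ℝ E := FiniteDimensional.complexToReal E
  rw [← lintegral_abs_det_fderiv_eq_addHaar_image μ hS.measurableSet
    (f' := fun x => (fderiv ℂ F x).restrictScalars ℝ) (fun x hx =>
      ((hF.differentiableAt (hS.mem_nhds hx)).hasFDerivAt.restrictScalars ℝ).hasFDerivWithinAt) hi]
  refine lintegral_congr fun x => ?_
  have h1 : ((fderiv ℂ F x).restrictScalars ℝ).det = ‖jac F x‖ ^ 2 := det_real _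
  rw [h1, abs_of_nonneg (sq_nonneg _), ENNReal.ofReal_pow (norm_nonneg _), ofReal_norm,
    ENNReal.rpow_two]

end Gen

variable {W : Type*} [NormedAddCommGroup W] [InnerProductSpace ℂ W] [FiniteDimensional ℂ W]

/-- square integrable holomorphic functions have no common zero -/
theorem exists_L2 {χ : (ℂ × ℂ) × W → ℝ} (hχ : ContinuousOn χ (DDG W))
    (hmono : ∀ x ∈ DDG W, χ (x.1, 0) ≤ χ x) (hf : HasFun χ 1)
    [MeasurableSpace (((ℂ × ℂ) × W) × ℂ)] [BorelSpace (((ℂ × ℂ) × W) × ℂ)]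
    (μ : Measure (((ℂ × ℂ) × W) × ℂ)) [μ.IsAddHaarMeasure] {p : ((ℂ × ℂ) × W) × ℂ}
    (hp : p ∈ MMg (DDG W) χ) : ∃ J : ((ℂ × ℂ) × W) × ℂ → ℂ, DifferentiableOn ℂ J (MMg (DDG W) χ) ∧
      ∫⁻ x in MMg (DDG W) χ, ‖J x‖ₑ ^ (2 : ℝ) ∂μ < ⊤ ∧ J p ≠ 0 := by
  have hM : IsOpen (MMg (DDG W) χ) := GNot.isOpen_MMg _ GNot.isOpen_DDG χ hχ
  obtain ⟨f, hfd, hfC, hf0⟩ := hf _ (fst_mem hp)
  obtain ⟨h1, C, hC⟩ := BH_F4 hmono hfd hfC
  simp only [pow_one] at h1 hC
  let c : XX W ≃L[ℂ] (ℂ × ℂ) × W := (WithLp.prodContinuousLinearEquiv 2 ℂ _ W).trans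
    ((WithLp.prodContinuousLinearEquiv 2 ℂ ℂ ℂ).prodCongr (ContinuousLinearEquiv.refl ℂ W))
  let Φ : ((ℂ × ℂ) × W) × ℂ → ((ℂ × ℂ) × W) × ℂ := fun y => (c (Cay y.1), f y.1.1 * y.2)
  have h0 : DifferentiableOn ℂ (fun y : ((ℂ × ℂ) × W) × ℂ => Cay y.1) (MMg (DDG W) χ) :=
    DifferentiableOn.comp (g := Cay) differentiableOn_Cay differentiableOn_fst fun _ hy => hy.1
  have hΦ : DifferentiableOn ℂ Φ (MMg (DDG W) χ) :=
    (c.differentiable.comp_differentiableOn h0).prodMk h1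
  have hf1 : DifferentiableOn ℂ (fun y : ((ℂ × ℂ) × W) × ℂ => f y.1.1) (MMg (DDG W) χ) :=
    hfd.comp (by fun_prop) fun x hx => fst_mem hx
  let S := MMg (DDG W) χ ∩ (fun y => f y.1.1) ⁻¹' {0}ᶜ
  have hS : IsOpen S := hf1.continuousOn.isOpen_inter_preimage hM isOpen_compl_singleton
  let B : Set (((ℂ × ℂ) × W) × ℂ) := (fun z => c.symm z.1) ⁻¹' ball 0 1
  have hB : IsOpen B := isOpen_ball.preimage (by fun_prop)
  have hD : DifferentiableOn ℂ (fun z : ((ℂ × ℂ) × W) × ℂ => Dec (c.symm z.1)) B :=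
    DifferentiableOn.comp (g := Dec) differentiableOn_Dec (by fun_prop) fun _ hz => hz
  have hf2 : DifferentiableOn ℂ (fun z : ((ℂ × ℂ) × W) × ℂ => f (Dec (c.symm z.1)).1) B :=
    hfd.comp hD.fst fun z hz => fst_mem (χ := χ) (mem_zero (Dec_mem (mem_ball_zero_iff.1 hz)))
  let U := B ∩ (fun z => f (Dec (c.symm z.1)).1) ⁻¹' {0}ᶜ
  have hU : IsOpen U := hf2.continuousOn.isOpen_inter_preimage hB isOpen_compl_singleton
  let G : ((ℂ × ℂ) × W) × ℂ → ((ℂ × ℂ) × W) × ℂ :=
    fun z => (Dec (c.symm z.1), z.2 * (f (Dec (c.symm z.1)).1)⁻¹)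
  have hG : DifferentiableOn ℂ G U := (hD.mono inter_subset_left).prodMk
    (differentiableOn_snd.mul ((hf2.mono inter_subset_left).inv fun z hz => hz.2))
  have hDC : ∀ y ∈ S, Dec (c.symm (Φ y).1) = y.1 := fun y hy => by
    simp only [Φ, c.symm_apply_apply, Dec_Cay (cw_ne hy.1.1)]
  have hGΦ : ∀ y ∈ S, G (Φ y) = y := fun y hy => by
    have h2 : f y.1.1 ≠ 0 := hy.2
    refine Prod.ext (hDC y hy) ?_
    simp only [G, hDC y hy]
    simp only [Φ]
    field_simp
  have hm : MapsTo Φ S U := fun y hy => ⟨by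
    simpa only [B, Φ, mem_preimage, c.symm_apply_apply, mem_ball_zero_iff] using Cay_mem hy.1.1, by
    simp only [mem_preimage, hDC y hy]
    exact hy.2⟩
  refine ⟨jac Φ, jac_diff hM hΦ, ?_, fun h => ?_⟩
  · have h2 : ∫⁻ x in MMg (DDG W) χ, ‖jac Φ x‖ₑ ^ (2 : ℝ) ∂μ =
        ∫⁻ x in S, ‖jac Φ x‖ₑ ^ (2 : ℝ) ∂μ := by
      rw [← lintegral_indicator hM.measurableSet, ← lintegral_indicator hS.measurableSet]
      refine lintegral_congr fun y => ?_
      by_cases hy : y ∈ S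
      · rw [indicator_of_mem hy, indicator_of_mem hy.1]
      rw [indicator_of_notMem hy]
      by_cases hy' : y ∈ MMg (DDG W) χ
      · have h3 : f y.1.1 = 0 := by
          by_contra h3
          exact hy ⟨hy', h3⟩
        have h4 : jac Φ y = 0 := by
          refine jac_eq_zero.2 ⟨(0, 1), by simp, ?_⟩
          have h5 : HasDerivAt (fun t : ℂ => y + t • ((0, 1) : ((ℂ × ℂ) × W) × ℂ)) (0, 1) 0 := by
            simpa using ((hasDerivAt_id (0 : ℂ)).smul_const ((0, 1) : ((ℂ × ℂ) × W) × ℂ)).const_add y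
          have h6 : HasFDerivAt Φ (fderiv ℂ Φ y) (y + (0 : ℂ) • (0, 1)) := by
            simpa using (hΦ.differentiableAt (hM.mem_nhds hy')).hasFDerivAt
          have h7 := h6.comp_hasDerivAt (0 : ℂ) h5
          have h8 : (Φ ∘ fun t : ℂ => y + t • ((0, 1) : ((ℂ × ℂ) × W) × ℂ)) =
              fun _ => (c (Cay y.1), 0) := by
            funext t
            simp [Φ, h3]
          rw [h8] at h7
          exact h7.unique (hasDerivAt_const _ _)
        rw [indicator_of_mem hy', h4]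
        simp
      · exact indicator_of_notMem hy' _
    rw [h2, jac_int μ hS (hΦ.mono inter_subset_left) (LeftInvOn.injOn hGΦ)]
    refine (measure_mono ?_).trans_lt (measure_closedBall_lt_top (x := 0)
      (r := max ‖c.toContinuousLinearMap‖ C))
    rintro _ ⟨y, hy, rfl⟩
    rw [mem_closedBall_zero_iff, Prod.norm_mk]
    refine max_le_max ((c.toContinuousLinearMap.le_opNorm _).trans ?_) (hC y hy.1)
    exact mul_le_of_le_one_right (norm_nonneg _) (Cay_mem hy.1.1).le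
  · obtain ⟨v, hv, h2⟩ := jac_eq_zero.1 h
    exact fderiv_ne hS hU (hΦ.mono inter_subset_left) hG hm hGΦ ⟨hp, hf0⟩ hv h2

end Vale.Agent.N250X
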