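import Vale.Agent.N250X.Defs
import Vale.Agent.N250X.Ahl
import Vale.Agent.N250X.JacB
import Vale.Agent.N250X.Vol

/-!
The counterexample with the stronger properties.
-/

set_option maxSynthPendingDepth 3
set_option linter.unusedSectionVars false

namespace Vale.Agent.N250X

open Set Filter Topology Metric MeasureTheory Complex Vale.Agent.P250 Vale.Agent.P250.G
  Vale.Agent.N250 Vale.Agent.P250.H3 Vale.Agent.P250I

section Gen

variable {E : Type} [NormedAddCommGroup E] [NormedSpace ℂ E] [FiniteDimensional ℂ E]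

/-- From the metric of the construction to the definitions of the statement. -/
theorem bridge {M : Set E} (h : PinchedKaehler M) : ∃ g, Pinched M g ∧ ∃ K : ℝ, 0 ≤ K ∧
    ∀ (p v : E) (r : ℝ), 0 < r → (∀ t : ℂ, ‖t‖ < r → p + t • v ∈ M) → ev g p v v ≤ K / r ^ 2 := by
  have : FiniteDimensional ℝ E := FiniteDimensional.complexToReal E
  have := FiniteDimensional.complete ℂ E
  obtain ⟨hM, hS, g, Γ, hK, hL, hC, a, b, ha, hab, hp⟩ := h
  obtain ⟨G, C, D, hG, hΓ⟩ := exists_data hM hK.toIsRiemannianMetric hL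
  have dG : ∀ p ∈ M, DifferentiableAt ℝ G p := fun p hp =>
    (D.sG.contDiffAt (hM.mem_nhds hp)).differentiableAt (by simp)
  have dC : ∀ p ∈ M, DifferentiableAt ℝ C p := fun p hp =>
    (D.sC.contDiffAt (hM.mem_nhds hp)).differentiableAt (by simp)
  have hs' : ∀ p ∈ M, ∀ V X Y, fderiv ℝ G p V X Y = fderiv ℝ G p V Y X := fun p hp =>
    fderiv_symm (dG p hp) (by filter_upwards [hM.mem_nhds hp] with x hx using D.symm x hx)
  have herm : ∀ p ∈ M, ∀ X Y, G p (I • X) (I • Y) = G p X Y := fun p hp X Y => by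
    rw [hG p hp, hG p hp, hK.hermitian p hp]
  have closed : ∀ p ∈ M, ∀ X Y Z, fderiv ℝ G p X (I • Y) Z + fderiv ℝ G p Y (I • Z) X
      + fderiv ℝ G p Z (I • X) Y = 0 := fun p hp X Y Z => by
    rw [← fd_const hM D.sG hG hp, ← fd_const hM D.sG hG hp, ← fd_const hM D.sG hG hp,
      hK.closed p hp]
  have sec : ∀ p ∈ M, ∀ X Y, S.sectional g Γ p X Y =
      G p (riem C p X Y Y) X / (G p X X * G p Y Y - G p X Y ^ 2) := fun p hp X Y => by
    rw [S.sectional, riem_eq hM D.sC hΓ hp, hG p hp, hG p hp, hG p hp, hG p hp, riem]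
  have li : ∀ p ∈ M, ∀ X Y, G p X X ≠ 0 → G p Y Y ≠ 0 → G p X Y = 0 →
      LinearIndependent ℝ ![X, Y] := fun p hp X Y h1 h2 h3 => by
    refine LinearIndependent.pair_iff.2 fun s t hst => ?_
    have h4 := congrArg (fun Z => G p Z X) hst
    have h5 := congrArg (fun Z => G p Z Y) hst
    simp only [map_add, map_smul, add_apply, smul_apply, smul_eq_mul, map_zero, zero_apply,
      D.symm p hp Y X, h3, mul_zero, add_zero, zero_add, mul_eq_zero, h1, h2, or_false] at h4 h5
    exact ⟨h4, h5⟩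
  refine ⟨fun p => (G p).toLinearMap₁₂, ⟨hM, hS, ⟨fun X Y => ?_, fun p hp X Y => ⟨D.symm p hp X Y,
    D.pos p hp X, herm p hp X Y, fun Z => ?_⟩⟩, fun p => (C p).toLinearMap₁₂, ⟨fun X Y => ?_,
    fun p hp X Y => ⟨koszul_symm (hs' p hp) (D.pos p hp) (D.koszul p hp) X Y, fun Z => ?_⟩⟩,
    fun p hp X => ?_, a, b, ha, hab, fun p hp' X Y h1 h2 h3 => ?_⟩, 16 / a, by positivity,
    fun p v r hr hd => ?_⟩
  · exact (D.sG.clm_apply contDiffOn_const).clm_apply contDiffOn_const
  · exact (congrArg₂ (· + ·) (congrArg₂ (· + ·) (fderiv_c2 (dG p hp) _ _ _)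
      (fderiv_c2 (dG p hp) _ _ _)) (fderiv_c2 (dG p hp) _ _ _)).trans (closed p hp X Y Z)
  · exact (D.sC.clm_apply contDiffOn_const).clm_apply contDiffOn_const
  · exact (fderiv_c2 (dG p hp) _ _ _).trans
      (koszul_compat (D.symm p hp) (hs' p hp) (D.koszul p hp) X Y Z)
  · obtain ⟨γ, γ', h0, h1, h2⟩ := hC p hp X
    have h3 : ∀ t, HasDerivAt γ' (-(C (γ t) (γ' t) (γ' t))) t := fun t => by
      rw [hΓ _ (h2 t).1]
      exact (h2 t).2.2
    have e1 : deriv γ = γ' := funext fun t => (h2 t).2.1.deriv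
    refine ⟨γ, geo_smooth D.sC (fun t => (h2 t).1) (fun t => (h2 t).2.1) h3, h0, by rw [e1, h1],
      fun t => ⟨(h2 t).1, ?_⟩⟩
    rw [e1, (h3 t).deriv]
    exact neg_add_cancel _
  · change G p X X = 1 at h1
    change G p Y Y = 1 at h2
    change G p X Y = 0 at h3
    have h4 := hp p hp' X Y (li p hp' X Y (h1 ▸ one_ne_zero) (h2 ▸ one_ne_zero) h3)
    rw [sec p hp', h1, h2, h3] at h4
    have h5 : curv (fun p => (C p).toLinearMap₁₂) p X Y Y = riem C p X Y Y :=
      congrArg₂ (· - ·) (congrArg₂ (· + ·) (congrArg₂ (· - ·) (fderiv_c2 (dC p hp') _ _ _)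
        (fderiv_c2 (dC p hp') _ _ _)) rfl) rfl
    change G p _ X ∈ _
    rw [h5]
    simpa using h4
  · change G p v v ≤ _
    by_cases hv : v = 0
    · simp only [hv, map_zero]
      positivity
    rw [div_div]
    refine ahlfors hM D ha hr hd hv fun q hq => log_sub hM D herm closed hq hv ?_
    have h1 := D.pos q hq v hv
    have h2 : G q v (I • v) = 0 := by
      have h3 := herm q hq v (I • v)
      rw [II, map_neg, D.symm q hq (I • v)] at h3
      linarith
    have h3 := (hp q hq v (I • v) (li q hq _ _ h1.ne' (by rw [herm q hq]; exact h1.ne') h2)).2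
    rw [sec q hq, herm q hq, h2, div_le_iff₀ (by simpa using h1.ne')] at h3
    linarith

/-- The consequences of the two analytic obstructions. -/
theorem strong_of [MeasureSpace E] [BorelSpace E] [(volume : Measure E).IsAddHaarMeasure]
    {M : Set E} (h : PinchedKaehler M)
    (hI : ∀ L : E → ℂ, DifferentiableOn ℂ L M → ∫⁻ x in M, ‖exp (L x)‖ₑ = ⊤)
    (hB : ∀ (F : E → E) (C : ℝ), DifferentiableOn ℂ F M → LB M F C →
      ∃ p ∈ M, ∃ v, v ≠ 0 ∧ fderiv ℂ F p v = 0)
    (h2 : ∀ x ∈ M, ∃ f, HolLp M 2 f ∧ f x ≠ 0) : Strong E := by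
  obtain ⟨g, hg, K, hK0, hK⟩ := bridge h
  have hM := hg.1
  have z : ∀ p > 0, ∀ f, HolLp M p f → ∃ x ∈ M, f x = 0 := fun p hp f hf => by
    by_contra hcon
    push Not at hcon
    obtain ⟨L, hL, hLf⟩ := exists_log' hM hg.2.1 hf.1 hcon
    refine hf.2.ne ((setLIntegral_congr_fun hM.measurableSet fun x hx => ?_).trans
      (hI (fun x => p * L x) (hL.const_mul _)))
    rw [← hLf x hx, ← ofReal_norm, ← ofReal_norm, norm_exp, norm_exp, re_ofReal_mul,
      ENNReal.ofReal_rpow_of_pos (Real.exp_pos _), ← Real.exp_mul, mul_comm]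
  have c : ∀ F, DifferentiableOn ℂ F M → MissesTwo M F ∨ Lip M g F →
      ∃ p ∈ M, ∃ v, v ≠ 0 ∧ fderiv ℂ F p v = 0 := by
    rintro F hF (⟨n, e, he⟩ | ⟨C, hC⟩)
    · choose a b hab he using he
      have hc : ∀ j, DifferentiableOn ℂ (fun x => e.equivFunL (F x) j) M := fun j =>
        differentiableOn_pi.1 (e.equivFunL.differentiable.comp_differentiableOn hF) j
      choose G hG hG1 hG2 using fun j => exists_lift hM hg.2.1 (hc j) (hab j) (he j)
      have hd : ∀ p ∈ M, ∀ v, fderiv ℂ (fun x j => G j x) p v = fun j => fderiv ℂ (G j) p v :=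
        fun p hp v => by
          rw [fderiv_pi fun j => (hG j).differentiableAt (hM.mem_nhds hp)]
          rfl
      obtain ⟨p, hp, v, hv, h0⟩ := hB (e.equivFunL.symm ∘ fun x j => G j x)
        (‖e.equivFunL.symm.toContinuousLinearMap‖ * 288)
        (e.equivFunL.symm.differentiable.comp_differentiableOn (differentiableOn_pi.2 hG))
        fun p v r hr hp => by
          have hp0 : p ∈ M := by simpa using hp 0 (by simpa using hr)
          rw [e.equivFunL.symm.comp_fderiv, ContinuousLinearMap.comp_apply, hd p hp0]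
          refine (ContinuousLinearMap.le_opNorm _ _).trans ((mul_le_mul_of_nonneg_left
            ((pi_norm_le_iff_of_nonneg (by positivity)).2 fun j => hG1 j p v r hr hp)
            (norm_nonneg _)).trans_eq (by ring))
      refine ⟨p, hp, v, hv, e.equivFunL.injective ?_⟩
      rw [e.equivFunL.symm.comp_fderiv, ContinuousLinearMap.comp_apply, hd p hp] at h0
      have h1 := e.equivFunL.symm.map_eq_zero_iff.1 h0
      have h3 := congrArg (fun L => L v) (e.equivFunL.comp_fderiv (f := F) (x := p))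
      have h4 := congrArg (fun L => L v) (fderiv_pi (φ := fun j x => e.equivFunL (F x) j)
        fun j => (hc j).differentiableAt (hM.mem_nhds hp))
      rw [map_zero]
      exact (h3.symm.trans h4).trans (funext fun j => hG2 j p hp v (congrFun h1 j))
    · refine hB F (Real.sqrt (|C| * K)) hF fun p v r hr hp => ?_
      have hp0 : p ∈ M := by simpa using hp 0 (by simpa using hr)
      have h0 : 0 ≤ ev g p v v := by
        by_cases hv : v = 0
        · simp [hv, ev]
        · exact ((hg.2.2.1.2 p hp0 v v).2.1 hv).le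
      have h1 : ‖fderiv ℂ F p v‖ ^ 2 ≤ (Real.sqrt (|C| * K) / r) ^ 2 := by
        rw [div_pow, Real.sq_sqrt (by positivity), mul_div_assoc]
        exact (hC p hp0 v).trans (mul_le_mul (le_abs_self C) (hK p v r hr hp) h0 (abs_nonneg C))
      refine (abs_le_of_sq_le_sq' h1 (by positivity)).2.trans ?_
      gcongr
      linarith [Real.sqrt_nonneg (|C| * K)]
  refine ⟨M, g, hg, ?_, z, h2, fun F hF hh => ?_⟩
  · rintro U hU hh ⟨F, G, hF, hG, hFm, -, hi⟩
    suffices ∃ p ∈ M, ∃ v, v ≠ 0 ∧ fderiv ℂ F p v = 0 by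
      obtain ⟨p, hp, v, hv, h0⟩ := this
      exact fderiv_ne hM hU hF hG hFm hi.1 hp hv h0
    rcases hh with hh | ⟨n, e, he⟩
    · obtain ⟨x, hx, h0⟩ := z 2 two_pos (jac F) ⟨jac_diff hM hF, by
        rw [jac_int volume hM hF hi.1.injOn]
        exact (measure_mono hFm.image_subset).trans_lt hh⟩
      exact ⟨x, hx, jac_eq_zero.1 h0⟩
    · refine c F hF (.inl ⟨n, e, fun j => ?_⟩)
      obtain ⟨a, b, hab, h1⟩ := he j
      exact ⟨a, b, hab, fun x hx => h1 _ (hFm hx)⟩
  · obtain ⟨p, hp, v, hv, h0⟩ := c F hF hh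
    exact ⟨p, hp, fun hi => hv (hi (h0.trans (map_zero _).symm))⟩

end Gen

theorem strong (n : ℕ) (hn : 3 ≤ n) : Strong (Cn n) := by
  obtain ⟨k, rfl⟩ := Nat.exists_eq_add_of_le hn
  obtain ⟨e⟩ := exists_equiv k
  obtain ⟨Ψ, lam, ε, h⟩ := exists_wt
  have hε := h.pos
  set c : ℝ := (3 + Module.finrank ℂ (EuclideanSpace ℂ (Fin k))) / 2 with hc
  set s : ℝ := 100 + c / ε with hs
  have hc0 : 0 ≤ c / ε := by positivity
  have hs0 : 0 < s := by linarith
  have hcs : c ≤ s * ε := by
    rw [hs, add_mul, div_mul_cancel₀ _ hε.ne']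
    linarith
  have hM := h.isOpen (W := EuclideanSpace ℂ (Fin k)) (s := s)
  obtain ⟨h1, -⟩ := pinched_of e (h.isCex hs0 (not_bdd hM (h.critical hcs)))
  have hf1 := h.hasFun (W := EuclideanSpace ℂ (Fin k)) (s := s) (N := 1) (by push_cast; linarith)
  set M := MMg (DDG (EuclideanSpace ℂ (Fin k))) (chi _ Ψ lam ε s) with hMd
  have hem : MapsTo e M (e.symm ⁻¹' M) := fun x hx => by simpa using hx
  have tr : ∀ u : _ → ENNReal, ∫⁻ y in M, u y ∂(volume.map e.symm) =
      ∫⁻ x in e.symm ⁻¹' M, u (e.symm x) := fun u => by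
    have h2 := e.symm.toHomeomorph.measurableEmbedding
    exact (congrArg (lintegral · u) (h2.restrict_map volume M)).trans (h2.lintegral_map u)
  refine strong_of h1 (fun L hL => ?_) (fun F C hF hC => ?_) fun x hx => ?_
  · have h2 := not_integrable h hcs (volume.map e.symm) (L := L ∘ e)
      (hL.comp e.differentiable.differentiableOn hem)
    rw [← hMd, tr] at h2
    simpa using h2
  · obtain ⟨p, hp, v, hv, h0⟩ := criticalB h hcs (e.symm ∘ F ∘ e)
      (e.symm.differentiable.comp_differentiableOn (hF.comp e.differentiable.differentiableOn hem))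
      (C := ‖e.symm.toContinuousLinearMap‖ * C) fun p v r hr hp => by
        rw [e.symm.comp_fderiv, e.comp_right_fderiv]
        refine (e.symm.toContinuousLinearMap.le_opNorm _).trans ((mul_le_mul_of_nonneg_left
          (hC (e p) (e v) r hr fun t ht => ?_) (norm_nonneg _)).trans_eq (by ring))
        simpa using hp t ht
    refine ⟨e p, hem hp, e v, by simpa using hv, ?_⟩
    rw [e.symm.comp_fderiv, e.comp_right_fderiv] at h0
    simpa using h0
  · obtain ⟨J, hJ, hJ2, hJ0⟩ := exists_L2 h.smooth.continuousOn (h.mono hs0) hf1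
      (volume.map e.symm) hx
    exact ⟨fun y => J (e.symm y), ⟨hJ.comp e.symm.differentiable.differentiableOn fun _ hy => hy,
      by rwa [tr] at hJ2⟩, hJ0⟩

theorem not_Q (n : ℕ) (hn : 3 ≤ n) : ¬ Q (Cn n) := fun h => by
  obtain ⟨M, g, hg, h1, -⟩ := strong n hn
  obtain ⟨U, hU, -, hb, hB⟩ := h M g hg
  exact h1 U hU (.inl hb.measure_lt_top) hB

end Vale.Agent.N250X
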