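import Mathlib.Analysis.Complex.MeanValue
import Mathlib.MeasureTheory.Function.Jacobian
import Mathlib.RingTheory.Norm.Transitivity
import Mathlib.RingTheory.Complex
import Mathlib.LinearAlgebra.Complex.FiniteDimensional

/-!
The mean value inequality for holomorphic functions on balanced sets.
-/

namespace Vale.Agent.N250X

open Set Metric MeasureTheory Complex

variable {E : Type*} [NormedAddCommGroup E] [NormedSpace ℂ E] [FiniteDimensional ℂ E]

omit [FiniteDimensional ℂ E] in
lemma det_real (A : E →ₗ[ℂ] E) :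
    LinearMap.det (A.restrictScalars ℝ) = ‖LinearMap.det A‖ ^ 2 := by
  rw [LinearMap.det_restrictScalars, Algebra.norm_complex_apply, Complex.normSq_eq_norm_sq]

variable [MeasurableSpace E] [BorelSpace E] (μ : Measure E) [μ.IsAddHaarMeasure]

lemma lintegral_rot {u : E → ENNReal} (hu : Measurable u) (p : E) {c : ℂ} (hc : ‖c‖ = 1) :
    ∫⁻ v, u (p + c • v) ∂μ = ∫⁻ v, u v ∂μ := by
  have : FiniteDimensional ℝ E := FiniteDimensional.complexToReal E
  let A : E →ₗ[ℝ] E := (c • LinearMap.id : E →ₗ[ℂ] E).restrictScalars ℝ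
  have hA : LinearMap.det A = 1 := by
    rw [det_real, LinearMap.det_smul, LinearMap.det_id, mul_one, norm_pow, hc, one_pow, one_pow]
  have h1 := Measure.map_linearMap_addHaar_eq_smul_addHaar μ (f := A) (by rw [hA]; exact one_ne_zero)
  rw [hA, inv_one, abs_one, ENNReal.ofReal_one, one_smul] at h1
  have h2 : Measurable fun v => u (p + v) := hu.comp (measurable_const_add p)
  calc ∫⁻ v, u (p + c • v) ∂μ = ∫⁻ v, u (p + v) ∂(μ.map A) :=
        (lintegral_map h2 A.continuous_of_finiteDimensional.measurable).symm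
    _ = ∫⁻ v, u v ∂μ := by rw [h1, lintegral_add_left_eq_self]

/-- **Mean value inequality.** -/
theorem submean {M B : Set E} (hM : IsOpen M) (hB : MeasurableSet B) {p : E}
    (hp : ∀ v ∈ B, ∀ t : ℂ, ‖t‖ ≤ 1 → p + t • v ∈ M) {G : E → ℂ} (hG : DifferentiableOn ℂ G M) :
    ‖G p‖ₑ * μ B ≤ ∫⁻ x in M, ‖G x‖ₑ ∂μ := by
  classical
  have : FiniteDimensional ℝ E := FiniteDimensional.complexToReal E
  let u : E → ENNReal := M.indicator fun x => ‖G x‖ₑ
  have hu : Measurable u :=
    ContinuousOn.measurable_piecewise hG.continuousOn.enorm continuousOn_const hM.measurableSet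
  have hpi : 0 < 2 * Real.pi := by positivity
  have h1 : ∀ v ∈ B, ENNReal.ofReal (2 * Real.pi) * ‖G p‖ₑ ≤
      ∫⁻ θ in Ioc 0 (2 * Real.pi), u (p + circleMap 0 1 θ • v) := by
    intro v hv
    have hd : DifferentiableOn ℂ (fun t : ℂ => G (p + t • v)) (closedBall 0 1) :=
      hG.comp (by fun_prop) fun t ht => hp v hv t (mem_closedBall_zero_iff.1 ht)
    have h2 : DiffContOnCl ℂ (fun t : ℂ => G (p + t • v)) (ball 0 |1|) := by
      rw [abs_one]
      exact hd.diffContOnCl_ball le_rfl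
    have h3 := h2.circleAverage
    rw [Real.circleAverage_def, zero_smul, add_zero, intervalIntegral.integral_of_le hpi.le] at h3
    have h4 : ∫ θ in Ioc 0 (2 * Real.pi), G (p + circleMap 0 1 θ • v) = (2 * Real.pi) • G p := by
      rw [← h3, smul_smul, mul_inv_cancel₀ hpi.ne', one_smul]
    have h5 := enorm_integral_le_lintegral_enorm (μ := volume.restrict (Ioc 0 (2 * Real.pi)))
      fun θ => G (p + circleMap 0 1 θ • v)
    rw [h4, enorm_smul, Real.enorm_eq_ofReal hpi.le] at h5
    refine h5.trans (le_of_eq (lintegral_congr fun θ => ?_))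
    exact (indicator_of_mem (hp v hv _ (by simp)) fun x => ‖G x‖ₑ).symm
  have hm : Measurable fun z : E × ℝ => u (p + circleMap 0 1 z.2 • z.1) :=
    hu.comp (Continuous.measurable (by fun_prop))
  have h6 : ENNReal.ofReal (2 * Real.pi) * (‖G p‖ₑ * μ B) ≤
      ENNReal.ofReal (2 * Real.pi) * ∫⁻ x in M, ‖G x‖ₑ ∂μ := by
    calc _ = ∫⁻ _ in B, ENNReal.ofReal (2 * Real.pi) * ‖G p‖ₑ ∂μ := by
          rw [setLIntegral_const, mul_assoc]
      _ ≤ ∫⁻ v in B, (∫⁻ θ in Ioc 0 (2 * Real.pi), u (p + circleMap 0 1 θ • v)) ∂μ :=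
          setLIntegral_mono' hB h1
      _ ≤ ∫⁻ v, (∫⁻ θ in Ioc 0 (2 * Real.pi), u (p + circleMap 0 1 θ • v)) ∂μ :=
          setLIntegral_le_lintegral _ _
      _ = ∫⁻ θ in Ioc 0 (2 * Real.pi), ∫⁻ v, u (p + circleMap 0 1 θ • v) ∂μ :=
          lintegral_lintegral_swap hm.aemeasurable
      _ = ∫⁻ _ in Ioc 0 (2 * Real.pi), ∫⁻ v, u v ∂μ :=
          lintegral_congr fun θ => lintegral_rot μ hu p (by simp)
      _ = _ := by
          rw [setLIntegral_const, Real.volume_Ioc, sub_zero, mul_comm,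
            lintegral_indicator hM.measurableSet]
  exact (ENNReal.mul_le_mul_iff_right (by simpa using Real.pi_pos) ENNReal.ofReal_ne_top).1 h6

end Vale.Agent.N250X
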