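import Vale.Agent.N250.Main
import Vale.Agent.N250X.Mean

/-!
The weight has bounded oscillation on polydiscs adapted to the base; integrable holomorphic
functions on the disc bundle have a zero.
-/

set_option maxSynthPendingDepth 3
set_option linter.unusedSectionVars false

namespace Vale.Agent.N250X

open Set Filter Topology Metric MeasureTheory Vale.Agent.P250 Vale.Agent.P250.G Vale.Agent.N250
  Vale.Agent.P250.StarPhi

lemma rho_skew (q : ℂ × ℂ) (a b : ℂ) :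
    rho (q + (a, 2 * (q.1.im : ℂ) * a + b)) = rho q + b.im - a.im ^ 2 := by
  simp only [rho, Prod.snd_add, Prod.fst_add, Complex.add_im, Complex.mul_im, Complex.mul_re,
    Complex.re_ofNat, Complex.im_ofNat, Complex.ofReal_re, Complex.ofReal_im]
  ring

lemma osc {CΨ Λ : ℝ} {Ψ : ℂ → ℝ} (hΨ : IsPsi CΨ Λ Ψ) {lam : ℝ} (hlam : 2 ≤ lam) :
    ∃ K : ℝ, ∀ q ∈ DD, ∀ a b : ℂ, ‖a‖ ^ 2 ≤ rho q / 4 → ‖b‖ ≤ rho q / 4 →
      phi Ψ lam 0 (q + (a, 2 * (q.1.im : ℂ) * a + b)) ≤ phi Ψ lam 0 q + K := by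
  obtain ⟨L, hL, hLip⟩ := exists_lip hΨ
  refine ⟨1152 * L, fun q hq a b ha hb => ?_⟩
  have hρ : 0 < rho q := hq
  set q' := q + (a, 2 * (q.1.im : ℂ) * a + b) with hq'
  have h1 : rho q / 2 ≤ rho q' := by
    rw [hq', rho_skew]
    have h2 := abs_le.1 (Complex.abs_im_le_norm b)
    have h3 : a.im ^ 2 ≤ ‖a‖ ^ 2 := sq_le_sq' (abs_le.1 (Complex.abs_im_le_norm a)).1
      (abs_le.1 (Complex.abs_im_le_norm a)).2
    linarith [h2.1]
  have hρ' : 0 < rho q' := by linarith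
  have hl0 : 0 < lam := by linarith
  have hl1 : 1 ≤ lam := by linarith
  by_cases hbig : 10 ≤ rho q
  · have h0 : ∀ x, 5 ≤ rho x → phi Ψ lam 0 x = 0 := fun x hx => by
      have : ∀ k, Sk Ψ lam k x = 0 := fun k => Sk_zero hΨ hl0 (by
        nlinarith [one_le_pow₀ (n := 2 * k) hl1])
      simp [phi, this]
    rw [h0 q (by linarith), h0 q' (by linarith)]
    positivity
  push Not at hbig
  obtain ⟨N, hN1, hN2⟩ : ∃ N : ℕ, 5 ≤ lam ^ (2 * (N + 1)) * (rho q / 2) ∧
      lam ^ (2 * N) * (rho q / 2) < 5 := by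
    by_cases h8 : rho q / 2 ≤ 4
    · exact exists_scale hlam (half_pos hρ) h8
    · refine ⟨0, ?_, by simp; linarith⟩
      push Not at h8
      norm_num
      nlinarith
  have hA : 0 < lam ^ (2 * (N + 1)) := by positivity
  have hA' : 0 < lam ^ (2 * N) := by positivity
  have ha' : lam ^ N * ‖a‖ ≤ 9 := by
    refine (abs_le_of_sq_le_sq' ?_ (by norm_num)).2
    rw [mul_pow, ← pow_mul, mul_comm N 2]
    nlinarith
  have hc : Close lam N q.1.im q' q := by
    refine ⟨?_, ?_, ?_, ?_⟩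
    · have e : q'.2 - q.2 - 2 * (q.1.im : ℂ) * (q'.1 - q.1) = b := by
        simp [hq']
      rw [e]
      nlinarith
    · simpa [hq'] using ha'
    · have e : q'.1.im - q.1.im = a.im := by simp [hq']
      rw [e]
      exact (mul_le_mul_of_nonneg_left (Complex.abs_im_le_norm a) (by positivity)).trans ha'
    · simp
  rw [phi_eq (N := N) hΨ hl1 0 hρ (by nlinarith), phi_eq (N := N) hΨ hl1 0 hρ' (by nlinarith)]
  have h2 : ∑ k ∈ Finset.range N, (Sk Ψ lam k q' - Sk Ψ lam k q)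
      ≤ ∑ k ∈ Finset.range N, 576 * L * (1 / lam) ^ (N - k) :=
    Finset.sum_le_sum fun k hk => (le_abs_self _).trans
      (Sk_close hΨ hL hLip hl1 (Finset.mem_range.1 hk).le hρ'.le hρ.le hc)
  rw [Finset.sum_sub_distrib, ← Finset.mul_sum] at h2
  have h3 := (geom_le hlam N).trans (by rw [div_le_one hl0]; exact hlam : 2 / lam ≤ 1)
  have h4 := (le_abs_self _).trans (Sk_close hΨ hL hLip hl1 le_rfl hρ'.le hρ.le hc)
  rw [Nat.sub_self, pow_zero, mul_one] at h4
  nlinarith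

variable {W : Type*} [NormedAddCommGroup W] [InnerProductSpace ℂ W] [FiniteDimensional ℂ W]
variable {Ψ : ℂ → ℝ} {lam ε s : ℝ}

/-- the linear map taking the unit polydisc to the adapted polydisc -/
noncomputable def skew (W : Type*) [NormedAddCommGroup W] [InnerProductSpace ℂ W]
    (x r1 r2 r3 : ℝ) : (((ℂ × ℂ) × W) × ℂ) →ₗ[ℂ] (((ℂ × ℂ) × W) × ℂ) :=
  ((Matrix.toLin (Module.Basis.finTwoProd ℂ) (Module.Basis.finTwoProd ℂ)
    !![(r1 : ℂ), 0; 2 * x * r1, r2]).prodMap ((r1 : ℂ) • LinearMap.id)).prodMap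
    ((r3 : ℂ) • LinearMap.id)

lemma skew_apply (x r1 r2 r3 : ℝ) (v : ((ℂ × ℂ) × W) × ℂ) : skew W x r1 r2 r3 v =
    (((r1 * v.1.1.1, 2 * (x : ℂ) * (r1 * v.1.1.1) + r2 * v.1.1.2), (r1 : ℂ) • v.1.2),
      r3 * v.2) := by
  obtain ⟨⟨⟨a, b⟩, η⟩, w⟩ := v
  simp [skew, Matrix.toLin_finTwoProd_apply, mul_assoc]

lemma skew_det (x r1 r2 r3 : ℝ) : LinearMap.det (skew W x r1 r2 r3) =
    r1 * r2 * r1 ^ Module.finrank ℂ W * r3 := by
  rw [skew, LinearMap.det_prodMap, LinearMap.det_prodMap, LinearMap.det_toLin, LinearMap.det_smul,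
    LinearMap.det_smul, Matrix.det_fin_two]
  simp

/-- the adapted polydisc lies in the bundle -/
lemma skew_mem (h : Wt Ψ lam ε) (hs : 0 < s) : ∃ K : ℝ, ∀ q ∈ DD, ∀ v ∈ ball (0 : ((ℂ × ℂ) × W) × ℂ) 1,
    ((q, 0), 0) + skew W q.1.im (Real.sqrt (rho q) / 2) (rho q / 4)
      (Real.exp (-(s * phi Ψ lam ε q + K))) v ∈ MMg (DDG W) (chi W Ψ lam ε s) := by
  obtain ⟨CΨ, Λ, hΨ⟩ := h.psi
  obtain ⟨K, hK⟩ := osc hΨ h.two
  refine ⟨s * (ε * Real.log 4 + K), fun q hq v hv => ?_⟩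
  have hρ : 0 < rho q := hq
  obtain ⟨⟨⟨a, b⟩, η⟩, w⟩ := v
  simp only [mem_ball_zero_iff, Prod.norm_mk, max_lt_iff] at hv
  obtain ⟨⟨⟨ha, hb⟩, hη⟩, hw⟩ := hv
  rw [skew_apply]
  set r1 := Real.sqrt (rho q) / 2 with hr1
  have h1 : 0 < r1 := half_pos (Real.sqrt_pos.2 hρ)
  have h2 : r1 ^ 2 = rho q / 4 := by
    rw [hr1, div_pow, Real.sq_sqrt hρ.le]
    norm_num
  have ha' : ‖(r1 : ℂ) * a‖ ^ 2 ≤ rho q / 4 := by
    rw [norm_mul, Complex.norm_real, Real.norm_of_nonneg h1.le, mul_pow, h2]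
    exact mul_le_of_le_one_right (by positivity) (pow_le_one₀ (norm_nonneg _) ha.le)
  have hη' : ‖(r1 : ℂ) • η‖ ^ 2 ≤ rho q / 4 := by
    rw [norm_smul, Complex.norm_real, Real.norm_of_nonneg h1.le, mul_pow, h2]
    exact mul_le_of_le_one_right (by positivity) (pow_le_one₀ (norm_nonneg _) hη.le)
  have hb' : ‖((rho q / 4 : ℝ) : ℂ) * b‖ ≤ rho q / 4 := by
    rw [norm_mul, Complex.norm_real, Real.norm_of_nonneg (by positivity)]
    exact mul_le_of_le_one_right (by positivity) hb.le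
  have h3 := hK q hq _ _ ha' hb'
  set q' := q + ((r1 : ℂ) * a, 2 * (q.1.im : ℂ) * (r1 * a) + ((rho q / 4 : ℝ) : ℂ) * b) with hq'
  have h4 : rho q / 4 ≤ rhoG (q', (r1 : ℂ) • η) := by
    change _ ≤ rho q' - ‖(r1 : ℂ) • η‖ ^ 2
    rw [hq', rho_skew]
    have h5 := (abs_le.1 ((Complex.abs_im_le_norm _).trans hb')).1
    have h6 : ((r1 : ℂ) * a).im ^ 2 ≤ ‖(r1 : ℂ) * a‖ ^ 2 :=
      sq_le_sq' (abs_le.1 (Complex.abs_im_le_norm _)).1 (abs_le.1 (Complex.abs_im_le_norm _)).2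
    linarith
  have h5 : chi W Ψ lam ε s (q', (r1 : ℂ) • η) ≤ s * phi Ψ lam ε q + s * (ε * Real.log 4 + K) := by
    have h6 := Real.log_le_log (by positivity) h4
    rw [Real.log_div hρ.ne' (by norm_num)] at h6
    simp only [chi, phiG, phi, neg_zero, zero_mul, zero_add] at h3 ⊢
    rw [← mul_add]
    refine mul_le_mul_of_nonneg_left ?_ hs.le
    nlinarith [h.pos]
  have h6 := mem_fibre (χ := chi W Ψ lam ε s) (x := (q', (r1 : ℂ) • η))
    (lt_of_lt_of_le (by positivity) h4)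
    (t := (Real.exp (-(s * phi Ψ lam ε q + s * (ε * Real.log 4 + K))) : ℝ) * w) (by
      rw [norm_mul, Complex.norm_real, Real.norm_of_nonneg (Real.exp_pos _).le]
      exact (mul_lt_of_lt_one_right (Real.exp_pos _) hw).trans_le
        (Real.exp_le_exp.2 (neg_le_neg h5)))
  simpa [hq'] using h6

/-- no holomorphic function has a real part of small growth -/
lemma no_small (h : Wt Ψ lam ε) {c m C : ℝ} (hc : 0 < c) (hs : c ≤ s * ε) (hm : 0 < m)
    {L : ℂ × ℂ → ℂ} (hL : DifferentiableOn ℂ L DD)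
    (hC : ∀ q ∈ DD, (L q).re ≤ C + m * (s * phi Ψ lam ε q - c * Real.log (rho q))) : False := by
  have hs0 : 0 < s := by
    by_contra h1
    push Not at h1
    nlinarith [h.pos]
  have hcs : c / s ≤ ε := by rwa [div_le_iff₀ hs0, mul_comm]
  obtain ⟨t0, ht0, ht⟩ := h.small (ε + c / s) (by have := h.pos; positivity) (by linarith)
  set τ : ℝ := t0 / 2 / (m * s) with hτ
  have hτ0 : 0 < τ := by positivity
  refine Complex.exp_ne_zero _ (ht (t0 / 2) (half_pos ht0) (half_lt_self ht0)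
    (fun q => Complex.exp (τ * L q)) ((hL.const_mul _).cexp)
    ⟨Real.exp (τ * C), fun q hq => ?_⟩ _ mem_DD_I)
  have h1 := hC q hq
  have h2 : s * phi Ψ lam ε q - c * Real.log (rho q) = s * phi Ψ lam (ε + c / s) q := by
    simp only [phi]
    field_simp
    ring
  rw [h2] at h1
  rw [Complex.norm_exp, ← Real.exp_add, Real.exp_le_exp, Complex.re_ofReal_mul]
  have h4 : t0 / 2 = τ * (m * s) := by
    rw [hτ]
    field_simp
  rw [h4]
  nlinarith

/-- **No exponential is integrable.** -/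
theorem not_integrable (h : Wt Ψ lam ε) (hs : (3 + Module.finrank ℂ W) / 2 ≤ s * ε)
    [MeasurableSpace (((ℂ × ℂ) × W) × ℂ)] [BorelSpace (((ℂ × ℂ) × W) × ℂ)]
    (μ : Measure (((ℂ × ℂ) × W) × ℂ)) [μ.IsAddHaarMeasure] {L : ((ℂ × ℂ) × W) × ℂ → ℂ}
    (hL : DifferentiableOn ℂ L (MMg (DDG W) (chi W Ψ lam ε s))) :
    ∫⁻ x in MMg (DDG W) (chi W Ψ lam ε s), ‖Complex.exp (L x)‖ₑ ∂μ = ⊤ := by
  by_contra hI
  have hc : (0 : ℝ) < (3 + Module.finrank ℂ W) / 2 := by positivity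
  have hs0 : 0 < s := by
    by_contra h1
    push Not at h1
    nlinarith [h.pos]
  obtain ⟨K, hK⟩ := skew_mem (W := W) h hs0
  set k := Module.finrank ℂ W with hk
  set I := (∫⁻ x in MMg (DDG W) (chi W Ψ lam ε s), ‖Complex.exp (L x)‖ₑ ∂μ).toReal with hI'
  set V := (μ (ball 0 1)).toReal with hV
  have hV0 : 0 < V := ENNReal.toReal_pos (measure_ball_pos μ _ one_pos).ne' measure_ball_lt_top.ne
  refine no_small h hc hs two_pos (L := fun q => L ((q, 0), 0))
    (hL.comp (by fun_prop) fun q hq => GNot.mem_MMg_zero hq)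
    (C := Real.log (I / V) + 2 * K + (3 + k) * Real.log 4) fun q hq => ?_
  have hρ : 0 < rho q := hq
  set T := skew W q.1.im (Real.sqrt (rho q) / 2) (rho q / 4)
      (Real.exp (-(s * phi Ψ lam ε q + K))) with hT
  have hdet : LinearMap.det (T.restrictScalars ℝ) = Real.exp ((3 + k) * (Real.log (rho q)
      - Real.log 4) - 2 * (s * phi Ψ lam ε q + K)) := by
    have e1 : (Real.sqrt (rho q) / 2) ^ 2 = rho q / 4 := by
      rw [div_pow, Real.sq_sqrt hρ.le]
      norm_num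
    have e2 : rho q / 4 = Real.exp (Real.log (rho q) - Real.log 4) := by
      rw [Real.exp_sub, Real.exp_log hρ, Real.exp_log (by norm_num)]
    rw [det_real, hT, skew_det, ← hk, ← Complex.ofReal_pow, ← Complex.ofReal_mul,
      ← Complex.ofReal_mul, ← Complex.ofReal_mul, Complex.norm_real, Real.norm_eq_abs, sq_abs,
      mul_pow, mul_pow, mul_pow, ← pow_mul, mul_comm k 2, pow_mul, e1, e2, ← Real.exp_nat_mul,
      ← Real.exp_nat_mul, ← Real.exp_nat_mul, ← Real.exp_add, ← Real.exp_add, ← Real.exp_add]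
    congr 1
    push_cast
    ring
  have hopen : IsOpen (T '' ball 0 1) := by
    have h1 : LinearMap.det (T.restrictScalars ℝ) ≠ 0 := by rw [hdet]; exact Real.exp_ne_zero _
    exact (LinearMap.equivOfDetNeZero _ h1).toContinuousLinearEquiv.toHomeomorph.isOpenMap _
      isOpen_ball
  have h1 := submean μ h.isOpen hopen.measurableSet (p := ((q, 0), 0)) (by
    rintro _ ⟨v, hv, rfl⟩ t ht
    rw [← map_smul]
    refine hK q hq _ ?_
    rw [mem_ball_zero_iff] at hv ⊢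
    rw [norm_smul]
    exact mul_lt_one_of_nonneg_of_lt_one_right ht (norm_nonneg _) hv) hL.cexp
  have h2 := Measure.addHaar_image_linearMap μ (T.restrictScalars ℝ) (ball 0 1)
  rw [LinearMap.coe_restrictScalars] at h2
  have h3 := ENNReal.toReal_mono hI h1
  rw [h2, hdet, ENNReal.toReal_mul, ENNReal.toReal_mul, toReal_enorm, Complex.norm_exp,
    ENNReal.toReal_ofReal (abs_nonneg _), abs_of_pos (Real.exp_pos _), ← mul_assoc,
    ← Real.exp_add, ← hI', ← hV, ← le_div_iff₀ hV0] at h3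
  have h4 := Real.log_le_log (Real.exp_pos _) h3
  rw [Real.log_exp] at h4
  linarith

end Vale.Agent.N250X
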